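import Mathlib

set_option linter.all false

/-!
Covering lemma: every long word over a finite alphabet contains a long factor which is
recurrent on two scales, the scales being taken from a finite list.
-/

namespace Vale.Agent.P329.H742

variable {α : Type}

/-- every factor of length `a` of `g` occurs in every factor of length `b` of `g` -/
def Rec (a b : ℕ) (g : List α) : Prop :=
  ∀ s f : List α, s <:+: g → s.length = a → f <:+: g → f.length = b → s <:+: f

theorem Rec.mono {a b : ℕ} {g g' : List α} (h : Rec a b g) (hg : g' <:+: g) : Rec a b g' :=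
  fun s f hs hsa hf hfb => h s f (hs.trans hg) hsa (hf.trans hg) hfb

section fac

variable [Fintype α]

open Classical in
/-- the factors of length `a` -/
noncomputable def fac (a : ℕ) (g : List α) : Finset (List.Vector α a) :=
  Finset.univ.filter (fun v => v.1 <:+: g)

theorem mem_fac {a : ℕ} {g : List α} {v : List.Vector α a} : v ∈ fac a g ↔ v.1 <:+: g := by
  classical
  unfold fac
  simp

theorem fac_mono {a : ℕ} {g g' : List α} (h : g <:+: g') : fac a g ⊆ fac a g' := by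
  intro v hv
  rw [mem_fac] at hv ⊢
  exact hv.trans h

/-- the lengths of the list of scales -/
def scale (b0 : ℕ) (φ : ℕ → ℕ) : ℕ → ℕ
  | 0 => b0
  | k + 1 => max (φ (scale b0 φ k)) (scale b0 φ k)

theorem scale_ge (b0 : ℕ) (φ : ℕ → ℕ) (k : ℕ) : b0 ≤ scale b0 φ k := by
  induction k with
  | zero => exact le_refl _
  | succ k ih => exact ih.trans (le_max_right _ _)

theorem one_aux (a b0 : ℕ) (φ : ℕ → ℕ) (k : ℕ) :
    ∀ w : List α, φ (scale b0 φ k) ≤ w.length → (fac a w).card ≤ k →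
      ∃ j, j ≤ k ∧ ∃ g, g <:+: w ∧ φ (scale b0 φ j) ≤ g.length ∧ Rec a (scale b0 φ j) g := by
  induction k with
  | zero =>
    intro w hw hc
    refine ⟨0, le_refl _, w, List.infix_rfl, hw, ?_⟩
    intro s f hs hsa hf hfb
    exfalso
    have h1 : (⟨s, hsa⟩ : List.Vector α a) ∈ fac a w := mem_fac.2 hs
    have h2 : fac a w = ∅ := Finset.card_eq_zero.1 (Nat.le_zero.1 hc)
    rw [h2] at h1
    exact absurd h1 (Finset.notMem_empty _)
  | succ k ih =>
    intro w hw hc
    by_cases hR : Rec a (scale b0 φ (k + 1)) w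
    · exact ⟨k + 1, le_refl _, w, List.infix_rfl, hw, hR⟩
    · unfold Rec at hR
      push Not at hR
      obtain ⟨s, f, hs, hsa, hf, hfb, hsf⟩ := hR
      have h1 : (⟨s, hsa⟩ : List.Vector α a) ∈ fac a w := mem_fac.2 hs
      have h2 : (⟨s, hsa⟩ : List.Vector α a) ∉ fac a f := fun h => hsf (mem_fac.1 h)
      have h3 : fac a f ⊂ fac a w :=
        (Finset.ssubset_iff_of_subset (fac_mono hf)).2 ⟨_, h1, h2⟩
      have h4 := Finset.card_lt_card h3
      obtain ⟨j, hj, g, hg, hgl, hgR⟩ := ih f (by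
        rw [hfb]
        exact le_max_left _ _) (by omega)
      exact ⟨j, by omega, g, hg.trans hf, hgl, hgR⟩

/-- one scale -/
theorem one (a b0 : ℕ) (φ : ℕ → ℕ) : ∃ K M : ℕ, ∀ w : List α, M ≤ w.length →
    ∃ j, j ≤ K ∧ ∃ g, g <:+: w ∧ φ (scale b0 φ j) ≤ g.length ∧ Rec a (scale b0 φ j) g := by
  refine ⟨Fintype.card (List.Vector α a), φ (scale b0 φ (Fintype.card (List.Vector α a))), ?_⟩
  intro w hw
  exact one_aux a b0 φ _ w hw (Finset.card_le_univ _)

/-- Covering lemma: two scales. -/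
theorem cover (C : ℕ) : ∃ (Q : Finset (ℕ × ℕ × ℕ × ℕ)) (M : ℕ),
    (∀ q ∈ Q, C ≤ q.1 ∧ q.1 ≤ q.2.1 ∧ C * q.2.1 ≤ q.2.2.1 ∧ q.2.2.1 ≤ q.2.2.2) ∧
    ∀ w : List α, M ≤ w.length → ∃ q ∈ Q, ∃ g, g <:+: w ∧ 10 * q.2.2.2 ≤ g.length ∧
      Rec q.1 q.2.1 g ∧ Rec q.2.2.1 q.2.2.2 g := by
  classical
  -- the second scale, for a given `b`
  have h2 : ∀ b : ℕ, ∃ K M : ℕ, ∀ w : List α, M ≤ w.length →
      ∃ j, j ≤ K ∧ ∃ g, g <:+: w ∧
        10 * scale (C * b) (fun x => 10 * x) j ≤ g.length ∧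
        Rec (C * b) (scale (C * b) (fun x => 10 * x) j) g :=
    fun b => one (C * b) (C * b) (fun x => 10 * x)
  choose K2 M2 h2 using h2
  obtain ⟨K, M, h1⟩ := one (α := α) C C M2
  refine ⟨(Finset.range (K + 1)).biUnion (fun j =>
      (Finset.range (K2 (scale C M2 j) + 1)).image (fun i =>
        (C, scale C M2 j, C * scale C M2 j,
          scale (C * scale C M2 j) (fun x => 10 * x) i))), M, ?_, ?_⟩
  · intro q hq
    rw [Finset.mem_biUnion] at hq
    obtain ⟨j, _, hq⟩ := hq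
    rw [Finset.mem_image] at hq
    obtain ⟨i, _, rfl⟩ := hq
    exact ⟨le_refl _, scale_ge _ _ _, le_refl _, scale_ge _ _ _⟩
  · intro w hw
    obtain ⟨j, hj, g, hg, hgl, hgR⟩ := h1 w hw
    obtain ⟨i, hi, g', hg', hgl', hgR'⟩ := h2 _ g hgl
    refine ⟨(C, scale C M2 j, C * scale C M2 j,
      scale (C * scale C M2 j) (fun x => 10 * x) i), ?_, g', hg'.trans hg, hgl',
      hgR.mono hg', hgR'⟩
    rw [Finset.mem_biUnion]
    refine ⟨j, Finset.mem_range.2 (by omega), ?_⟩
    rw [Finset.mem_image]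
    exact ⟨i, Finset.mem_range.2 (by omega), rfl⟩

end fac

end Vale.Agent.P329.H742
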